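import Mathlib

namespace Vale.Agent.Results.P031.DoublingMonotone

/-- `v` is a totient value: `v = φ(n)` for some `n ≥ 1`. -/
def IsTotientValue (v : ℕ) : Prop := ∃ n : ℕ, 0 < n ∧ Nat.totient n = v

/-- `V x`: the number of totient values `v ≤ x`. -/
noncomputable def V (x : ℝ) : ℕ := {v : ℕ | (v : ℝ) ≤ x ∧ IsTotientValue v}.ncard

theorem isTotientValue_two_mul {v : ℕ} (h : IsTotientValue v) : IsTotientValue (2 * v) := by
  obtain ⟨n, hn, rfl⟩ := h
  rcases Nat.even_or_odd n with he | ho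
  · refine ⟨2 * n, by omega, ?_⟩
    obtain ⟨k, hk⟩ := he
    have h2 : 2 ∣ n := ⟨k, by omega⟩
    exact Nat.totient_mul_of_prime_of_dvd Nat.prime_two h2
  · refine ⟨4 * n, by omega, ?_⟩
    have hc : Nat.Coprime 4 n := by
      have : Nat.Coprime 2 n := Nat.coprime_two_left.mpr ho
      exact Nat.Coprime.pow_left 2 this
    rw [Nat.totient_mul hc]
    have : Nat.totient 4 = 2 := by decide
    rw [this]

theorem isTotientValue_six_mul {v : ℕ} (h : IsTotientValue v) : IsTotientValue (6 * v) := by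
  obtain ⟨n, hn, rfl⟩ := h
  by_cases h3 : 3 ∣ n
  · have e3 : Nat.totient (3 * n) = 3 * Nat.totient n :=
      Nat.totient_mul_of_prime_of_dvd Nat.prime_three h3
    rcases Nat.even_or_odd n with he | ho
    · refine ⟨2 * (3 * n), by omega, ?_⟩
      obtain ⟨k, hk⟩ := he
      have h2 : 2 ∣ 3 * n := ⟨3 * k, by omega⟩
      rw [Nat.totient_mul_of_prime_of_dvd Nat.prime_two h2, e3]
      ring
    · refine ⟨4 * (3 * n), by omega, ?_⟩
      have ho3 : Odd (3 * n) := Nat.odd_mul.mpr ⟨by decide, ho⟩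
      have hc : Nat.Coprime 4 (3 * n) := by
        have : Nat.Coprime 2 (3 * n) := Nat.coprime_two_left.mpr ho3
        exact Nat.Coprime.pow_left 2 this
      rw [Nat.totient_mul hc, e3]
      have : Nat.totient 4 = 2 := by decide
      rw [this]
      ring
  · refine ⟨9 * n, by omega, ?_⟩
    have hc : Nat.Coprime 9 n := by
      have : Nat.Coprime 3 n := (Nat.Prime.coprime_iff_not_dvd Nat.prime_three).mpr h3
      exact Nat.Coprime.pow_left 2 this
    rw [Nat.totient_mul hc]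
    have : Nat.totient 9 = 6 := by decide
    rw [this]

theorem isTotientValue_pow_mul (a b : ℕ) {v : ℕ} (h : IsTotientValue v) :
    IsTotientValue (2 ^ a * 6 ^ b * v) := by
  induction a with
  | zero =>
    induction b with
    | zero => simpa using h
    | succ b ih =>
      have := isTotientValue_six_mul ih
      have e : 2 ^ 0 * 6 ^ (b + 1) * v = 6 * (2 ^ 0 * 6 ^ b * v) := by ring
      rw [e]
      exact this
  | succ a ih =>
    have := isTotientValue_two_mul ih
    have e : 2 ^ (a + 1) * 6 ^ b * v = 2 * (2 ^ a * 6 ^ b * v) := by ring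
    rw [e]
    exact this

theorem not_isTotientValue_zero : ¬ IsTotientValue 0 := by
  rintro ⟨n, hn, h⟩
  exact (Nat.totient_pos.mpr hn).ne' h

theorem finite_le (z : ℝ) (p : ℕ → Prop) : {v : ℕ | (v : ℝ) ≤ z ∧ p v}.Finite := by
  apply (Set.finite_Iic ⌊z⌋₊).subset
  intro v hv
  rcases le_or_gt 0 z with hz | hz
  · exact Nat.le_floor hv.1
  · exfalso
    have : (0 : ℝ) ≤ v := Nat.cast_nonneg v
    linarith [hv.1]

/-- Exact decomposition: for a multiplier `m ≥ 1` preserving totient values, the totient values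
up to `m * x` are the `m`-multiples of totient values up to `x` together with the totient
values up to `m * x` that are not `m` times a totient value. -/
theorem V_mul_eq (m : ℕ) (hm : 0 < m) (hmul : ∀ v, IsTotientValue v → IsTotientValue (m * v))
    (x : ℝ) :
    V (m * x) = V x
      + {v : ℕ | (v : ℝ) ≤ m * x ∧ IsTotientValue v ∧ ¬ ∃ w, IsTotientValue w ∧ v = m * w}.ncard := by
  have hm' : (0 : ℝ) < m := Nat.cast_pos.mpr hm
  have hsplit : {v : ℕ | (v : ℝ) ≤ m * x ∧ IsTotientValue v}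
      = (fun w : ℕ => m * w) '' {w : ℕ | (w : ℝ) ≤ x ∧ IsTotientValue w}
        ∪ {v : ℕ | (v : ℝ) ≤ m * x ∧ IsTotientValue v ∧ ¬ ∃ w, IsTotientValue w ∧ v = m * w} := by
    ext v
    simp only [Set.mem_ofPred_eq, Set.mem_union, Set.mem_image]
    constructor
    · rintro ⟨hv, hvt⟩
      by_cases hw : ∃ w, IsTotientValue w ∧ v = m * w
      · obtain ⟨w, hwt, rfl⟩ := hw
        left
        refine ⟨w, ⟨?_, hwt⟩, rfl⟩
        push_cast at hv
        exact le_of_mul_le_mul_left hv hm'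
      · right
        exact ⟨hv, hvt, hw⟩
    · rintro (⟨w, ⟨hw, hwt⟩, rfl⟩ | ⟨hv, hvt, _⟩)
      · refine ⟨?_, hmul w hwt⟩
        push_cast
        exact mul_le_mul_of_nonneg_left hw hm'.le
      · exact ⟨hv, hvt⟩
  have hdisj : Disjoint ((fun w : ℕ => m * w) '' {w : ℕ | (w : ℝ) ≤ x ∧ IsTotientValue w})
      {v : ℕ | (v : ℝ) ≤ m * x ∧ IsTotientValue v ∧ ¬ ∃ w, IsTotientValue w ∧ v = m * w} := by
    rw [Set.disjoint_left]
    rintro v ⟨w, ⟨_, hwt⟩, rfl⟩ ⟨_, _, hnot⟩
    exact hnot ⟨w, hwt, rfl⟩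
  have hinj : Function.Injective (fun w : ℕ => m * w) := fun a b hab =>
    Nat.eq_of_mul_eq_mul_left hm hab
  unfold V
  rw [hsplit, Set.ncard_union_eq hdisj ((finite_le x _).image _) (finite_le _ _),
    Set.ncard_image_of_injective _ hinj]

/-- For a multiplier `m ≥ 1` preserving totient values, `x ↦ V (m x) - V x` is nondecreasing. -/
theorem V_mul_sub_mono (m : ℕ) (hm : 0 < m)
    (hmul : ∀ v, IsTotientValue v → IsTotientValue (m * v)) (x y : ℝ) (hxy : x ≤ y) :
    (V (m * x) : ℤ) - V x ≤ (V (m * y) : ℤ) - V y := by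
  have hm' : (0 : ℝ) < m := Nat.cast_pos.mpr hm
  rw [V_mul_eq m hm hmul x, V_mul_eq m hm hmul y]
  have hsub : {v : ℕ | (v : ℝ) ≤ m * x ∧ IsTotientValue v ∧ ¬ ∃ w, IsTotientValue w ∧ v = m * w}
      ⊆ {v : ℕ | (v : ℝ) ≤ m * y ∧ IsTotientValue v ∧ ¬ ∃ w, IsTotientValue w ∧ v = m * w} := by
    intro v hv
    exact ⟨hv.1.trans (mul_le_mul_of_nonneg_left hxy hm'.le), hv.2⟩
  have := Set.ncard_le_ncard hsub (finite_le _ _)
  push_cast
  linarith [(Nat.cast_le (α := ℤ)).mpr this]

/-- The number of totient values in the window `(x, m x]` is a nondecreasing function of `x`,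
for every multiplier `m = 2^a * 6^b`; in particular for `m = 2` and `m = 6`. -/
theorem result (a b : ℕ) (x y : ℝ) (hxy : x ≤ y) :
    (V (((2 ^ a * 6 ^ b : ℕ) : ℝ) * x) : ℤ) - V x ≤ (V (((2 ^ a * 6 ^ b : ℕ) : ℝ) * y) : ℤ) - V y :=
  V_mul_sub_mono (2 ^ a * 6 ^ b) (by positivity) (fun _ h => isTotientValue_pow_mul a b h) x y hxy

end Vale.Agent.Results.P031.DoublingMonotone
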