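import Mathlib

namespace Vale.Agent.Results.P031.LimitExistence

open Filter Topology

/-- `v` is a totient value: `v = φ(n)` for some `n ≥ 1`. -/
def IsTotientValue (v : ℕ) : Prop := ∃ n : ℕ, 0 < n ∧ Nat.totient n = v

/-- `V x`: the number of totient values `v ≤ x`. -/
noncomputable def V (x : ℝ) : ℕ := {v : ℕ | (v : ℝ) ≤ x ∧ IsTotientValue v}.ncard

theorem set_subset (x : ℝ) :
    {v : ℕ | (v : ℝ) ≤ x ∧ IsTotientValue v} ⊆ (Finset.Icc 1 ⌊x⌋₊ : Finset ℕ) := by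
  rintro v ⟨hv, n, hn, rfl⟩
  have h1 : 0 < Nat.totient n := Nat.totient_pos.mpr hn
  have h2 : Nat.totient n ≤ ⌊x⌋₊ := Nat.le_floor hv
  simp only [Finset.coe_Icc, Set.mem_Icc]
  exact ⟨h1, h2⟩

theorem set_finite (x : ℝ) : {v : ℕ | (v : ℝ) ≤ x ∧ IsTotientValue v}.Finite :=
  (Finset.finite_toSet _).subset (set_subset x)

theorem V_mono : Monotone V := by
  intro x y hxy
  apply Set.ncard_le_ncard _ (set_finite y)
  rintro v ⟨hv, hT⟩
  exact ⟨hv.trans hxy, hT⟩

theorem V_le (x : ℝ) (hx : 0 ≤ x) : (V x : ℝ) ≤ x := by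
  have h1 : V x ≤ (Finset.Icc 1 ⌊x⌋₊ : Finset ℕ).card := by
    have := Set.ncard_le_ncard (set_subset x) (Finset.finite_toSet _)
    rwa [Set.ncard_coe_finset] at this
  have h2 : (Finset.Icc 1 ⌊x⌋₊ : Finset ℕ).card = ⌊x⌋₊ := by simp
  have h3 : (V x : ℝ) ≤ (⌊x⌋₊ : ℝ) := by exact_mod_cast h1.trans_eq h2
  exact h3.trans (Nat.floor_le hx)

theorem V_pos (x : ℝ) (hx : 1 ≤ x) : 1 ≤ V x := by
  have hmem : (1 : ℕ) ∈ {v : ℕ | (v : ℝ) ≤ x ∧ IsTotientValue v} :=
    ⟨by exact_mod_cast hx, 1, one_pos, by simp⟩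
  have hne : {v : ℕ | (v : ℝ) ≤ x ∧ IsTotientValue v}.Nonempty := ⟨1, hmem⟩
  exact (Set.ncard_pos (set_finite x)).mpr hne

theorem primeCounting_le_V (n : ℕ) : Nat.primeCounting n ≤ V n := by
  have h0 : Nat.primeCounting n = ((Finset.range (n + 1)).filter Nat.Prime).card := by
    rw [Nat.primeCounting, Nat.primeCounting', Nat.count_eq_card_filter_range]
  have hinj : Set.InjOn (fun p : ℕ => p - 1) ((Finset.range (n + 1)).filter Nat.Prime : Finset ℕ) := by
    intro p hp q hq hpq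
    simp only [Finset.coe_filter, Finset.mem_range, Set.mem_ofPred_eq] at hp hq
    have := hp.2.two_le
    have := hq.2.two_le
    simp only at hpq
    omega
  have hsub : ((((Finset.range (n + 1)).filter Nat.Prime).image (fun p : ℕ => p - 1) : Finset ℕ) : Set ℕ)
      ⊆ {v : ℕ | (v : ℝ) ≤ (n : ℝ) ∧ IsTotientValue v} := by
    intro v hv
    simp only [Finset.coe_image, Finset.coe_filter, Finset.mem_range, Set.mem_image,
      Set.mem_ofPred_eq] at hv
    obtain ⟨p, ⟨hp1, hp2⟩, rfl⟩ := hv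
    refine ⟨?_, p, hp2.pos, Nat.totient_prime hp2⟩
    have : p - 1 ≤ n := by omega
    exact_mod_cast this
  have h1 := Set.ncard_le_ncard hsub (set_finite n)
  rw [Set.ncard_coe_finset, Finset.card_image_of_injOn hinj] at h1
  rw [h0]
  exact h1

/-- Chebyshev-type lower bound for the number of totient values. -/
theorem V_lower (x : ℝ) (hx : 1 ≤ x) :
    (x - 1) * Real.log 2 - Real.log (x + 2) ≤ (V x : ℝ) * Real.log x := by
  have h1 := Chebyshev.psi_ge' (x := x) (by linarith)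
  have h2 := Chebyshev.psi_le_primeCounting_mul_log' x
  have h3 : (Nat.primeCounting ⌊x⌋₊ : ℝ) ≤ (V x : ℝ) := by
    have ha : Nat.primeCounting ⌊x⌋₊ ≤ V (⌊x⌋₊ : ℝ) := primeCounting_le_V _
    have hb : V (⌊x⌋₊ : ℝ) ≤ V x := V_mono (Nat.floor_le (by linarith))
    exact_mod_cast ha.trans hb
  have h4 : 0 ≤ Real.log x := Real.log_nonneg hx
  nlinarith [mul_le_mul_of_nonneg_right h3 h4]

/-- Explicit form: for `y ≥ 8`, `y / 4 ≤ V y * log y`. -/
theorem V_lower' (y : ℝ) (hy : 8 ≤ y) : y / 4 ≤ (V y : ℝ) * Real.log y := by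
  have h1 := V_lower y (by linarith)
  have hl2 : (0.6931471803 : ℝ) < Real.log 2 := Real.log_two_gt_d9
  have hl2' : Real.log 2 < (0.6931471808 : ℝ) := Real.log_two_lt_d9
  -- log (y + 2) = log ((y + 2) / 8) + 3 log 2 ≤ (y + 2) / 8 - 1 + 3 log 2
  have h8 : Real.log 8 = 3 * Real.log 2 := by
    have : (8 : ℝ) = 2 ^ 3 := by norm_num
    rw [this, Real.log_pow]; norm_num
  have h2 : Real.log (y + 2) = Real.log ((y + 2) / 8) + Real.log 8 := by
    rw [← Real.log_mul (by positivity) (by norm_num)]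
    congr 1; ring
  have h3 : Real.log ((y + 2) / 8) ≤ (y + 2) / 8 - 1 :=
    Real.log_le_sub_one_of_pos (by positivity)
  nlinarith

/-- Iterating a one-step lower bound along the geometric sequence `c ^ k * x0`. -/
theorem iter_lower (c L' x0 : ℝ) (hc : 1 < c) (hL' : 0 ≤ L') (hx0 : 1 ≤ x0)
    (h : ∀ x, x0 ≤ x → L' * (V x : ℝ) ≤ (V (c * x) : ℝ)) (k : ℕ) :
    L' ^ k ≤ (V (c ^ k * x0) : ℝ) := by
  induction k with
  | zero =>
    have : (1 : ℝ) ≤ (V x0 : ℝ) := by exact_mod_cast V_pos x0 hx0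
    simpa using this
  | succ k ih =>
    have hck : x0 ≤ c ^ k * x0 := by
      have : 1 ≤ c ^ k := one_le_pow₀ hc.le
      nlinarith
    have h1 := h (c ^ k * x0) hck
    have e : c * (c ^ k * x0) = c ^ (k + 1) * x0 := by ring
    rw [e] at h1
    calc L' ^ (k + 1) = L' * L' ^ k := by ring
      _ ≤ L' * (V (c ^ k * x0) : ℝ) := mul_le_mul_of_nonneg_left ih hL'
      _ ≤ _ := h1

/-- Iterating a one-step upper bound along the geometric sequence `c ^ k * x0`. -/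
theorem iter_upper (c L' x0 : ℝ) (hc : 1 < c) (hL' : 0 ≤ L') (hx0 : 1 ≤ x0)
    (h : ∀ x, x0 ≤ x → (V (c * x) : ℝ) ≤ L' * (V x : ℝ)) (k : ℕ) :
    (V (c ^ k * x0) : ℝ) ≤ L' ^ k * x0 := by
  induction k with
  | zero =>
    have : (V x0 : ℝ) ≤ x0 := V_le x0 (by linarith)
    simpa using this
  | succ k ih =>
    have hck : x0 ≤ c ^ k * x0 := by
      have : 1 ≤ c ^ k := one_le_pow₀ hc.le
      nlinarith
    have h1 := h (c ^ k * x0) hck
    have e : c * (c ^ k * x0) = c ^ (k + 1) * x0 := by ring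
    rw [e] at h1
    calc (V (c ^ (k + 1) * x0) : ℝ) ≤ L' * (V (c ^ k * x0) : ℝ) := h1
      _ ≤ L' * (L' ^ k * x0) := mul_le_mul_of_nonneg_left ih hL'
      _ = L' ^ (k + 1) * x0 := by ring

/-- For `c < L'` the ratio `V (c x) / V x` is not eventually `> L'` (because `V y ≤ y`). -/
theorem not_eventually_gt (c L' : ℝ) (hc : 1 < c) (h1 : c < L') :
    ¬ ∀ᶠ x in atTop, L' < (V (c * x) : ℝ) / (V x : ℝ) := by
  intro hev
  have hc0 : 0 < c := by linarith
  obtain ⟨x1, hx1⟩ := eventually_atTop.mp hev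
  obtain ⟨x0, hx0def⟩ : ∃ x0 : ℝ, x0 = max x1 1 := ⟨_, rfl⟩
  have hx0 : 1 ≤ x0 := by rw [hx0def]; exact le_max_right _ _
  have hx01 : x1 ≤ x0 := by rw [hx0def]; exact le_max_left _ _
  have hstep : ∀ x, x0 ≤ x → L' * (V x : ℝ) ≤ (V (c * x) : ℝ) := by
    intro x hx
    have hVpos : (0 : ℝ) < V x := by exact_mod_cast V_pos x (hx0.trans hx)
    have h3 := hx1 x (hx01.trans hx)
    rw [lt_div_iff₀ hVpos] at h3
    exact h3.le
  have hk := iter_lower c L' x0 hc (by linarith) hx0 hstep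
  have hr : 1 < L' / c := by rw [lt_div_iff₀ hc0]; linarith
  obtain ⟨k, hk'⟩ := pow_unbounded_of_one_lt x0 hr
  have h3 := hk k
  have h4 := V_le (c ^ k * x0) (mul_nonneg (pow_nonneg hc0.le k) (by linarith))
  have h5 : L' ^ k ≤ c ^ k * x0 := h3.trans h4
  have h6 : (L' / c) ^ k ≤ x0 := by
    rw [div_pow, div_le_iff₀ (pow_pos hc0 k)]
    linarith
  linarith

/-- For `0 < L' < c` the ratio `V (c x) / V x` is not eventually `< L'`
(Chebyshev's lower bound for the number of primes). -/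
theorem not_eventually_lt (c L' : ℝ) (hc : 1 < c) (h1 : L' < c) (hL'pos : 0 < L') :
    ¬ ∀ᶠ x in atTop, (V (c * x) : ℝ) / (V x : ℝ) < L' := by
  intro hev
  have hc0 : 0 < c := by linarith
  obtain ⟨x1, hx1⟩ := eventually_atTop.mp hev
  obtain ⟨x0, hx0def⟩ : ∃ x0 : ℝ, x0 = max x1 8 := ⟨_, rfl⟩
  have hx0 : 8 ≤ x0 := by rw [hx0def]; exact le_max_right _ _
  have hx01 : x1 ≤ x0 := by rw [hx0def]; exact le_max_left _ _
  have hx0pos : 0 < x0 := by linarith
  have hstep : ∀ x, x0 ≤ x → (V (c * x) : ℝ) ≤ L' * (V x : ℝ) := by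
    intro x hx
    have hVpos : (0 : ℝ) < V x := by exact_mod_cast V_pos x (by linarith)
    have h3 := hx1 x (hx01.trans hx)
    rw [div_lt_iff₀ hVpos] at h3
    exact h3.le
  have hk := iter_upper c L' x0 hc hL'pos.le (by linarith) hstep
  have hr : 1 < c / L' := by rw [lt_div_iff₀ hL'pos]; linarith
  have key : ∀ k : ℕ, (c / L') ^ k ≤ 4 * Real.log c * k + 4 * Real.log x0 := by
    intro k
    have hck1 : 1 ≤ c ^ k := one_le_pow₀ hc.le
    have hckpos : 0 < c ^ k := pow_pos hc0 k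
    have hy : 8 ≤ c ^ k * x0 := by nlinarith
    have h3 := V_lower' (c ^ k * x0) hy
    have h4 := hk k
    have hlog : Real.log (c ^ k * x0) = k * Real.log c + Real.log x0 := by
      rw [Real.log_mul hckpos.ne' hx0pos.ne', Real.log_pow]
    have hlogpos : 0 ≤ Real.log (c ^ k * x0) := Real.log_nonneg (by linarith)
    have h5 : c ^ k * x0 / 4 ≤ L' ^ k * x0 * (k * Real.log c + Real.log x0) := by
      rw [← hlog]
      exact h3.trans (mul_le_mul_of_nonneg_right h4 hlogpos)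
    rw [div_pow, div_le_iff₀ (pow_pos hL'pos k)]
    have h6 : c ^ k * x0 ≤ (4 * Real.log c * k + 4 * Real.log x0) * L' ^ k * x0 := by
      linarith
    exact le_of_mul_le_mul_right h6 hx0pos
  have t1 := tendsto_pow_const_div_const_pow_of_one_lt 1 hr
  have t0 := tendsto_pow_const_div_const_pow_of_one_lt 0 hr
  have t : Tendsto (fun n : ℕ => 4 * Real.log c * ((n : ℝ) ^ 1 / (c / L') ^ n)
      + 4 * Real.log x0 * ((n : ℝ) ^ 0 / (c / L') ^ n)) atTop
      (𝓝 (4 * Real.log c * 0 + 4 * Real.log x0 * 0)) :=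
    (t1.const_mul _).add (t0.const_mul _)
  have hlt : 4 * Real.log c * 0 + 4 * Real.log x0 * 0 < (1 : ℝ) := by norm_num
  have hev2 := t.eventually (gt_mem_nhds hlt)
  obtain ⟨n, hn⟩ := hev2.exists
  have hpos : 0 < (c / L') ^ n := pow_pos (by linarith) n
  have h7 := key n
  have e : 4 * Real.log c * ((n : ℝ) ^ 1 / (c / L') ^ n)
      + 4 * Real.log x0 * ((n : ℝ) ^ 0 / (c / L') ^ n)
      = (4 * Real.log c * n + 4 * Real.log x0) / (c / L') ^ n := by
    rw [pow_one, pow_zero]; ring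
  rw [e, div_lt_one hpos] at hn
  linarith

/-- If `V (c x) / V x` converges, its limit is at most `c`. -/
theorem limit_le (c L : ℝ) (hc : 1 < c)
    (h : Tendsto (fun x : ℝ => (V (c * x) : ℝ) / (V x : ℝ)) atTop (𝓝 L)) : L ≤ c := by
  refine not_lt.mp fun hcon => ?_
  have h1 : c < (c + L) / 2 := by linarith
  have h2 : (c + L) / 2 < L := by linarith
  exact not_eventually_gt c ((c + L) / 2) hc h1 (h.eventually (lt_mem_nhds h2))

/-- If `V (c x) / V x` converges, its limit is at least `c`. -/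
theorem limit_ge (c L : ℝ) (hc : 1 < c)
    (h : Tendsto (fun x : ℝ => (V (c * x) : ℝ) / (V x : ℝ)) atTop (𝓝 L)) : c ≤ L := by
  refine not_lt.mp fun hcon => ?_
  have hL0 : 0 ≤ L := ge_of_tendsto' h (fun x => by positivity)
  have h1 : (c + L) / 2 < c := by linarith
  have h2 : L < (c + L) / 2 := by linarith
  exact not_eventually_lt c ((c + L) / 2) hc h1 (by linarith) (h.eventually (gt_mem_nhds h2))

/-- The scales at which the ratio converges to the scale itself. -/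
def Good (lam : ℝ) : Prop :=
  0 < lam ∧ Tendsto (fun x : ℝ => (V (lam * x) : ℝ) / (V x : ℝ)) atTop (𝓝 lam)

theorem good_one : Good 1 := by
  refine ⟨one_pos, ?_⟩
  have h : (fun x : ℝ => (V (1 * x) : ℝ) / (V x : ℝ)) =ᶠ[atTop] fun _ => (1 : ℝ) := by
    filter_upwards [eventually_ge_atTop (1 : ℝ)] with x hx
    have hVpos : (0 : ℝ) < V x := by exact_mod_cast V_pos x hx
    rw [one_mul, div_self hVpos.ne']
  exact (tendsto_congr' h).mpr tendsto_const_nhds

theorem good_mul {a b : ℝ} (ha : Good a) (hb : Good b) : Good (a * b) := by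
  obtain ⟨ha0, ha1⟩ := ha
  obtain ⟨hb0, hb1⟩ := hb
  refine ⟨mul_pos ha0 hb0, ?_⟩
  have hscale : Tendsto (fun x : ℝ => b * x) atTop atTop := tendsto_id.const_mul_atTop hb0
  have h1 : Tendsto (fun x : ℝ => (V (a * (b * x)) : ℝ) / (V (b * x) : ℝ)) atTop (𝓝 a) :=
    ha1.comp hscale
  have h2 := h1.mul hb1
  refine (tendsto_congr' ?_).mpr h2
  filter_upwards [hscale.eventually (eventually_ge_atTop (1 : ℝ))] with x hx
  have hVpos : (0 : ℝ) < V (b * x) := by exact_mod_cast V_pos (b * x) hx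
  rw [mul_assoc, div_mul_div_cancel₀ hVpos.ne']

theorem good_inv {a : ℝ} (ha : Good a) : Good a⁻¹ := by
  obtain ⟨ha0, ha1⟩ := ha
  refine ⟨inv_pos.mpr ha0, ?_⟩
  have hscale : Tendsto (fun x : ℝ => a⁻¹ * x) atTop atTop :=
    tendsto_id.const_mul_atTop (inv_pos.mpr ha0)
  have h1 : Tendsto (fun x : ℝ => (V (a * (a⁻¹ * x)) : ℝ) / (V (a⁻¹ * x) : ℝ)) atTop (𝓝 a) :=
    ha1.comp hscale
  have h2 := h1.inv₀ ha0.ne'
  refine (tendsto_congr ?_).mpr h2
  intro x
  rw [← mul_assoc, mul_inv_cancel₀ ha0.ne', one_mul, inv_div]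

theorem irrational_log_ratio : Irrational (Real.log 2 / Real.log 3) := by
  rintro ⟨q, hq⟩
  have h2 : 0 < Real.log 2 := Real.log_pos (by norm_num)
  have h3 : 0 < Real.log 3 := Real.log_pos (by norm_num)
  have hqpos : (0 : ℝ) < (q : ℝ) := by rw [hq]; positivity
  have hq' : (0 : ℚ) < q := by exact_mod_cast hqpos
  have hnum : 0 < q.num := Rat.num_pos.mpr hq'
  obtain ⟨m, hm⟩ : ∃ m : ℕ, (m : ℤ) = q.num := ⟨q.num.toNat, Int.toNat_of_nonneg hnum.le⟩
  have hm0 : 0 < m := by omega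
  have hden : (0 : ℝ) < (q.den : ℝ) := by exact_mod_cast q.den_pos
  have hqe : (q : ℝ) = (m : ℝ) / (q.den : ℝ) := by
    have e1 : (q : ℝ) = ((q.num : ℤ) : ℝ) / ((q.den : ℕ) : ℝ) := by
      exact_mod_cast (Rat.num_div_den q).symm
    rw [e1, ← hm, Int.cast_natCast]
  have e : (m : ℝ) * Real.log 3 = (q.den : ℝ) * Real.log 2 := by
    have h4 := hq
    rw [hqe, div_eq_div_iff hden.ne' h3.ne'] at h4
    linarith
  have e2 : Real.log ((3 : ℝ) ^ m) = Real.log ((2 : ℝ) ^ q.den) := by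
    rw [Real.log_pow, Real.log_pow]; exact e
  have e3 : (3 : ℝ) ^ m = (2 : ℝ) ^ q.den :=
    Real.log_injOn_pos (Set.mem_Ioi.mpr (by positivity)) (Set.mem_Ioi.mpr (by positivity)) e2
  have e4 : 3 ^ m = 2 ^ q.den := by exact_mod_cast e3
  have hodd : Odd (3 ^ m) := Odd.pow (by decide)
  have heven : Even (2 ^ q.den) := (Nat.even_pow' q.den_pos.ne').mpr even_two
  rw [e4] at hodd
  exact (Nat.not_even_iff_odd.mpr hodd) heven

theorem good_exp_of_mem {c1 c2 t : ℝ} (h1 : Good c1) (h2 : Good c2)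
    (ht : t ∈ AddSubgroup.closure ({Real.log c1, Real.log c2} : Set ℝ)) : Good (Real.exp t) := by
  induction ht using AddSubgroup.closure_induction with
  | mem x hx =>
    rcases hx with rfl | rfl
    · rw [Real.exp_log h1.1]; exact h1
    · rw [Real.exp_log h2.1]; exact h2
  | zero => rw [Real.exp_zero]; exact good_one
  | add x y _ _ hx hy => rw [Real.exp_add]; exact good_mul hx hy
  | neg x _ hx => rw [Real.exp_neg]; exact good_inv hx

theorem good_of_limit (c L : ℝ) (hc : 1 < c)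
    (h : Tendsto (fun x : ℝ => (V (c * x) : ℝ) / (V x : ℝ)) atTop (𝓝 L)) : Good c := by
  have hL : L = c := le_antisymm (limit_le c L hc h) (limit_ge c L hc h)
  refine ⟨by linarith, ?_⟩
  rw [← hL]
  rw [hL] at h ⊢
  exact h

theorem tendsto_of_good {c1 c2 : ℝ} (h2 : Good c1) (h3 : Good c2)
    (hirr : Irrational (Real.log c1 / Real.log c2)) (c : ℝ) (hc : 0 < c) :
    Tendsto (fun x : ℝ => (V (c * x) : ℝ) / (V x : ℝ)) atTop (𝓝 c) := by
  have hd : Dense (AddSubgroup.closure ({Real.log c1, Real.log c2} : Set ℝ) : Set ℝ) :=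
    dense_addSubgroupClosure_pair_iff.mpr hirr
  rw [tendsto_order]
  constructor
  · intro a ha
    obtain ⟨a', ha'def⟩ : ∃ a' : ℝ, a' = max a (c / 2) := ⟨_, rfl⟩
    have ha'c : a' < c := by rw [ha'def]; exact max_lt ha (by linarith)
    have ha'0 : 0 < a' := by
      rw [ha'def]; exact lt_of_lt_of_le (by linarith) (le_max_right _ _)
    have haa' : a ≤ a' := by rw [ha'def]; exact le_max_left _ _
    obtain ⟨t, ht, ht1, ht2⟩ := hd.exists_between (Real.log_lt_log ha'0 ha'c)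
    have hg := good_exp_of_mem h2 h3 ht
    have hlam1 : a' < Real.exp t :=
      calc a' = Real.exp (Real.log a') := (Real.exp_log ha'0).symm
        _ < Real.exp t := Real.exp_lt_exp.mpr ht1
    have hlam2 : Real.exp t < c :=
      calc Real.exp t < Real.exp (Real.log c) := Real.exp_lt_exp.mpr ht2
        _ = c := Real.exp_log hc
    have hev := hg.2.eventually (lt_mem_nhds (lt_of_le_of_lt haa' hlam1))
    filter_upwards [hev, eventually_ge_atTop (0 : ℝ)] with x hx hx0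
    refine lt_of_lt_of_le hx ?_
    have hmono : V (Real.exp t * x) ≤ V (c * x) :=
      V_mono (mul_le_mul_of_nonneg_right hlam2.le hx0)
    exact div_le_div_of_nonneg_right (by exact_mod_cast hmono) (Nat.cast_nonneg _)
  · intro b hb
    obtain ⟨t, ht, ht1, ht2⟩ := hd.exists_between (Real.log_lt_log hc hb)
    have hg := good_exp_of_mem h2 h3 ht
    have hb0 : 0 < b := by linarith
    have hlam1 : c < Real.exp t :=
      calc c = Real.exp (Real.log c) := (Real.exp_log hc).symm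
        _ < Real.exp t := Real.exp_lt_exp.mpr ht1
    have hlam2 : Real.exp t < b :=
      calc Real.exp t < Real.exp (Real.log b) := Real.exp_lt_exp.mpr ht2
        _ = b := Real.exp_log hb0
    have hev := hg.2.eventually (gt_mem_nhds hlam2)
    filter_upwards [hev, eventually_ge_atTop (0 : ℝ)] with x hx hx0
    refine lt_of_le_of_lt ?_ hx
    have hmono : V (c * x) ≤ V (Real.exp t * x) :=
      V_mono (mul_le_mul_of_nonneg_right hlam1.le hx0)
    exact div_le_div_of_nonneg_right (by exact_mod_cast hmono) (Nat.cast_nonneg _)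

/-- `V x` is the number of totient values `≤ x`.
(a) For every `c > 1` the ratio `V (c x) / V x` is `≤ c'` for arbitrarily large `x` whenever
`c' > c`, and `≥ c'` for arbitrarily large `x` whenever `c' < c`.
(b) Hence the only possible limit of `V (c x) / V x` as `x → ∞` is `c`.
(c) If `c₁, c₂ > 1` are multiplicatively independent (`log c₁ / log c₂` irrational) and the two
limits `lim V (c₁ x) / V x` and `lim V (c₂ x) / V x` exist, then `V (c x) / V x → c` for every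
`c > 0`.
(d) In particular this holds if the limits exist for `c₁ = 2` and `c₂ = 3`. -/
theorem result :
    (∀ c : ℝ, 1 < c →
      (∀ c' : ℝ, c < c' → ∀ x₀ : ℝ, ∃ x : ℝ, x₀ ≤ x ∧ (V (c * x) : ℝ) / (V x : ℝ) ≤ c') ∧
      (∀ c' : ℝ, c' < c → ∀ x₀ : ℝ, ∃ x : ℝ, x₀ ≤ x ∧ c' ≤ (V (c * x) : ℝ) / (V x : ℝ))) ∧
    (∀ c L : ℝ, 1 < c →
        Tendsto (fun x : ℝ => (V (c * x) : ℝ) / (V x : ℝ)) atTop (𝓝 L) → L = c) ∧
    (∀ c₁ c₂ : ℝ, 1 < c₁ → 1 < c₂ → Irrational (Real.log c₁ / Real.log c₂) →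
      (∃ L₁ : ℝ, Tendsto (fun x : ℝ => (V (c₁ * x) : ℝ) / (V x : ℝ)) atTop (𝓝 L₁)) →
      (∃ L₂ : ℝ, Tendsto (fun x : ℝ => (V (c₂ * x) : ℝ) / (V x : ℝ)) atTop (𝓝 L₂)) →
      ∀ c : ℝ, 0 < c → Tendsto (fun x : ℝ => (V (c * x) : ℝ) / (V x : ℝ)) atTop (𝓝 c)) ∧
    ((∃ L₂ : ℝ, Tendsto (fun x : ℝ => (V (2 * x) : ℝ) / (V x : ℝ)) atTop (𝓝 L₂)) →
      (∃ L₃ : ℝ, Tendsto (fun x : ℝ => (V (3 * x) : ℝ) / (V x : ℝ)) atTop (𝓝 L₃)) →
      ∀ c : ℝ, 0 < c → Tendsto (fun x : ℝ => (V (c * x) : ℝ) / (V x : ℝ)) atTop (𝓝 c)) := by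
  have hc : ∀ c₁ c₂ : ℝ, 1 < c₁ → 1 < c₂ → Irrational (Real.log c₁ / Real.log c₂) →
      (∃ L₁ : ℝ, Tendsto (fun x : ℝ => (V (c₁ * x) : ℝ) / (V x : ℝ)) atTop (𝓝 L₁)) →
      (∃ L₂ : ℝ, Tendsto (fun x : ℝ => (V (c₂ * x) : ℝ) / (V x : ℝ)) atTop (𝓝 L₂)) →
      ∀ c : ℝ, 0 < c → Tendsto (fun x : ℝ => (V (c * x) : ℝ) / (V x : ℝ)) atTop (𝓝 c) := by
    rintro c₁ c₂ h1 h2 hirr ⟨L₁, hL1⟩ ⟨L₂, hL2⟩ c hc0
    exact tendsto_of_good (good_of_limit c₁ L₁ h1 hL1) (good_of_limit c₂ L₂ h2 hL2) hirr c hc0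
  refine ⟨fun c hc1 => ⟨fun c' hc' x₀ => ?_, fun c' hc' x₀ => ?_⟩,
    fun c L hc1 h => le_antisymm (limit_le c L hc1 h) (limit_ge c L hc1 h), hc,
    hc 2 3 (by norm_num) (by norm_num) irrational_log_ratio⟩
  · by_contra hcon
    refine not_eventually_gt c c' hc1 hc' (eventually_atTop.mpr ⟨x₀, fun x hx => ?_⟩)
    refine not_le.mp fun hle => hcon ⟨x, hx, hle⟩
  · rcases le_or_gt c' 0 with h0 | h0
    · exact ⟨x₀, le_rfl, h0.trans (by positivity)⟩
    · by_contra hcon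
      refine not_eventually_lt c c' hc1 hc' h0 (eventually_atTop.mpr ⟨x₀, fun x hx => ?_⟩)
      refine not_le.mp fun hle => hcon ⟨x, hx, hle⟩

end Vale.Agent.Results.P031.LimitExistence
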