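import Mathlib
import Vale.Agent.Results.P031.LimitExistence

namespace Vale.Agent.Results.P031.TwoScaleCriterion

open Filter Topology

/-- With `V x` the number of totient values `≤ x`: the Erdős–Hall statement
`V (c x) / V x → c` for every fixed `c > 1` holds if and only if the two ratios
`V (2 x) / V x` and `V (3 x) / V x` converge (to any real limits) as `x → ∞`. -/
theorem result :
    let V : ℝ → ℕ := fun x => {v : ℕ | (v : ℝ) ≤ x ∧ ∃ n : ℕ, 0 < n ∧ Nat.totient n = v}.ncard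
    (∀ c : ℝ, 1 < c → Tendsto (fun x : ℝ => (V (c * x) : ℝ) / (V x : ℝ)) atTop (𝓝 c)) ↔
      ((∃ L : ℝ, Tendsto (fun x : ℝ => (V (2 * x) : ℝ) / (V x : ℝ)) atTop (𝓝 L)) ∧
        (∃ L : ℝ, Tendsto (fun x : ℝ => (V (3 * x) : ℝ) / (V x : ℝ)) atTop (𝓝 L))) := by
  intro V
  have hV : V = Vale.Agent.Results.P031.LimitExistence.V := rfl
  rw [hV]
  constructor
  · intro h
    exact ⟨⟨2, h 2 (by norm_num)⟩, ⟨3, h 3 (by norm_num)⟩⟩
  · rintro ⟨h2, h3⟩ c hc
    exact Vale.Agent.Results.P031.LimitExistence.result.2.2.2 h2 h3 c (by linarith)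

end Vale.Agent.Results.P031.TwoScaleCriterion
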